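import Vale.Agent.P354CB24.Ba
import Vale.Agent.P354CB13.B0c

/-!
The basic facts.
-/

namespace Vale.Agent.P354CB24

open Vale.Agent.P354CB

theorem b0 : B0 where
  st_rev := st_rev
  cv_rev h _ _ s := cv_rev h s
  ll_rev h := ll_rev h
  le_rev h := le_rev h
  fu_rev := fu_rev
  pa_rev := pa_rev
  gh0_rev := gh0_rev
  gh_rev := gh_rev
  hull_rev h := hull_rev h
  mono := mono
  congr := congr
  loc := loc
  aff h := aff h
  chart h := chart h
  vel := vel
  ll_cv h := ll_cv h
  seg h := seg h
  ray := P354CB13.ray fun h => seg h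
  nearF := P354CB13.nearF fun h => seg h
  nearP := P354CB13.nearP fun h => seg h
  midP := P354CB13.midP fun h => ll_cv h
  midF := P354CB13.midF fun h => ll_cv h
  past := P354CB13.past fun h => seg h
  lc := lc
  met := met

end Vale.Agent.P354CB24
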