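import Vale.Agent.P354CB24.Bb
import Vale.Agent.P354CB59.Lk1

/-!
Time reversal, and the topology of the underlying space.
-/

open scoped ContDiff Pointwise
open Set Filter Topology

namespace Vale.Agent.P354CB24

open Vale.Agent.P354n
open Vale.Agent.P354XJ
open Vale.Agent.P354CB
open Vale.Agent.P354CB59 (g_neg iso_rev)

variable {M : Spc} {I : Set ℝ} {c : ℝ → M.pt} {S U : Set M.pt} {a b : M.pt}

theorem st_rev (h : St M) : St (rev M) :=
  ⟨⟨isIsom_iff.2 fun e e' y hy he =>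
      (iso_rev h (co_mem (M := M) he)).2 (isIsom_iff.1 h.sp.tensor e e' y hy he),
    h.sp.signature, fun e y hy => (g_neg h hy _ _).trans_lt (h.sp.timelike e y hy),
    fun e => (h.sp.continuous e).neg, h.sp.regular⟩, h.vac⟩

theorem cv_to (h : St M) (s : ℝ) (k : Cv (rev M) I c) :
    Cv M ((fun t => s - t) ⁻¹' I) fun t => c (s - t) := by
  have hd : ContDiff ℝ 1 fun t : ℝ => s - t := by fun_prop
  refine ⟨k.1.comp hd.continuous.continuousOn (mapsTo_preimage _ _), fun t ht e he => ?_⟩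
  obtain ⟨k1, k2⟩ := k.2 _ ht e he
  obtain ⟨k3, k4⟩ := k2 _ _ rfl rfl
  refine ⟨ContDiffWithinAt.comp t (g := fun s => co e (c s)) k1 hd.contDiffWithinAt
    (mapsTo_preimage _ _), fun y w hy hw => ?_⟩
  have q : s +ᵥ -((fun t => s - t) ⁻¹' I) = I := by
    ext x
    simp [mem_vadd_set_iff_neg_vadd_mem]
  rw [derivWithin_comp_const_sub (f := fun s => co e (c s)), q] at hw
  rw [hy, hw, g_neg h (co_mem he), ← g_neg h (co_mem he) (-_), neg_neg]
  exact ⟨k3, k4⟩

theorem cv_of (h : St M) (s : ℝ) (k : Cv M I c) :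
    Cv (rev M) ((fun t => s - t) ⁻¹' I) fun t => c (s - t) :=
  cv_to (M := rev M) (st_rev h) s ⟨k.1, fun t ht e he => ⟨(k.2 t ht e he).1, fun y w hy hw => by
    simpa using (k.2 t ht e he).2 y w hy hw⟩⟩

theorem cv_rev (h : St M) (s : ℝ) :
    Cv (rev M) I c ↔ Cv M ((fun t => s - t) ⁻¹' I) fun t => c (s - t) :=
  ⟨cv_to h s, fun k => by simpa [preimage_preimage] using cv_of h s k⟩

theorem ll_rev (h : St M) : LL (rev M) a b ↔ LL M b a :=
  ⟨fun ⟨c, k, k0, k1⟩ => ⟨fun t => c (1 - t), by simpa using cv_to h 1 k, by simpa using k1,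
    by simpa using k0⟩, fun ⟨c, k, k0, k1⟩ => ⟨fun t => c (1 - t), by simpa using cv_of h 1 k,
    by simpa using k1, by simpa using k0⟩⟩

theorem le_rev (h : St M) : Le (rev M) a b ↔ Le M b a := by
  simp only [Le, ll_rev h]
  exact and_comm

theorem fu_rev (h : St M) (S : Set M.pt) : Fu (rev M) S = Pa M S := by
  ext x
  simp only [Fu, Pa, mem_ofPred_eq, ll_rev h]

theorem pa_rev (h : St M) (S : Set M.pt) : Pa (rev M) S = Fu M S := by
  ext x
  simp only [Fu, Pa, mem_ofPred_eq, ll_rev h]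

theorem flip_l : Tendsto (fun t : ℝ => 1 - t) (𝓝[<] 1) (𝓝[>] 0) :=
  tendsto_nhdsWithin_iff.2 ⟨tendsto_nhdsWithin_of_tendsto_nhds
    (by simpa using (continuous_sub_left (1 : ℝ)).tendsto 1),
    eventually_nhdsWithin_of_forall fun s hs => by simpa using hs⟩

theorem flip_r : Tendsto (fun t : ℝ => 1 - t) (𝓝[>] 0) (𝓝[<] 1) :=
  tendsto_nhdsWithin_iff.2 ⟨tendsto_nhdsWithin_of_tendsto_nhds
    (by simpa using (continuous_sub_left (1 : ℝ)).tendsto 0),
    eventually_nhdsWithin_of_forall fun s hs => by simpa using hs⟩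

theorem gh0_rev (h : GH0 M S) : GH0 (rev M) S := by
  refine ⟨st_rev h.st, h.sc, fun c k n => ?_⟩
  obtain ⟨t, ⟨t1, t2⟩, t3⟩ := h.cauchy (fun t => c (1 - t)) (by simpa using cv_to h.st 1 k)
    fun x => ⟨fun l => (n x).2 (by simpa [Function.comp_def] using l.comp flip_r),
      fun l => (n x).1 (by simpa [Function.comp_def] using l.comp flip_l)⟩
  refine ⟨1 - t, ⟨⟨sub_pos.2 t1.2, sub_lt_self _ t1.1⟩, t2⟩, fun u ⟨u1, u2⟩ => ?_⟩
  rw [← t3 (1 - u) ⟨⟨sub_pos.2 u1.2, sub_lt_self _ u1.1⟩, by simpa using u2⟩, sub_sub_cancel]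

theorem gh_rev (h : GH M S) : GH (rev M) S :=
  ⟨gh0_rev h.toGH0, fun s hs s' hs' k => (h.ac s' hs' s hs ((le_rev h.st).1 k)).symm⟩

theorem hull_rev (h : St M) : Hull (rev M) S U ↔ Hull M S U :=
  ⟨fun k => ⟨k.op, fun x m w l n => k.up x m w ((ll_rev h).2 l) (by rwa [fu_rev h]),
      fun x m w l n => k.dn x m w ((ll_rev h).2 l) (by rwa [pa_rev h])⟩,
    fun k => ⟨k.op, fun x m w l n => k.up x m w ((ll_rev h).1 l) (by rwa [pa_rev h] at n),
      fun x m w l n => k.dn x m w ((ll_rev h).1 l) (by rwa [fu_rev h] at n)⟩⟩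

theorem lc (M : Spc) : LocallyCompactSpace M.pt := by
  refine ⟨fun x n hn => ?_⟩
  obtain ⟨e, he⟩ := M.cover x
  rw [← (M.toE e).symm_map_nhds_eq he] at hn
  obtain ⟨K, K1, K2, K3⟩ := local_compact_nhds
    (inter_mem hn ((M.toE e).open_target.mem_nhds ((M.toE e).map_source he)))
  refine ⟨(M.toE e).symm '' K, ?_, image_subset_iff.2 fun y hy => (K2 hy).1,
    K3.image_of_continuousOn ((M.toE e).continuousOn_symm.mono fun y hy => (K2 hy).2)⟩
  rw [← (M.toE e).symm_map_nhds_eq he]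
  exact image_mem_map K1

theorem met (M : Spc) (_ : SecondCountableTopology M.pt) :
    TopologicalSpace.MetrizableSpace M.pt := by
  have := lc M
  infer_instance

end Vale.Agent.P354CB24
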