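import Vale.Agent.P354CB.Ez

/-!
Basic facts on future timelike curves: restriction, locality, change of parameter, charts.
-/

open scoped ContDiff
open Set Filter Topology

namespace Vale.Agent.P354CB24

open Vale.Agent.P354n
open Vale.Agent.P354XJ
open Vale.Agent.P354CB
open Vale.Agent.P354YC (iso_iff fut_map)

variable {M : Spc} {I J : Set ℝ} {c c' : ℝ → M.pt} {e : M.Chart}

theorem mono (h : Cv M I c) (hJ : J ⊆ I) (hu : UniqueDiffOn ℝ J) : Cv M J c :=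
  ⟨h.1.mono hJ, fun t ht e he => by
    obtain ⟨k1, k2⟩ := h.2 t (hJ ht) e he
    exact ⟨k1.mono hJ, fun y w hy hw => k2 y w hy
      (hw.trans (derivWithin_subset hJ (hu t ht) (k1.differentiableWithinAt one_ne_zero)))⟩⟩

theorem congr (h : Cv M I c) (k : EqOn c' c I) : Cv M I c' :=
  ⟨h.1.congr k, fun t ht e he => by
    obtain ⟨k1, k2⟩ := h.2 t ht e (k ht ▸ he)
    have q : EqOn (fun s => co e (c' s)) (fun s => co e (c s)) I := fun s hs =>
      congrArg (co e) (k hs)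
    exact ⟨k1.congr q (q ht), fun y w hy hw =>
      k2 y w (hy.trans (q ht)) (hw.trans (derivWithin_congr q (q ht)))⟩⟩

theorem loc (h : ∀ t ∈ I, ∃ J c', J ∈ 𝓝[I] t ∧ J ⊆ I ∧ Cv M J c' ∧ EqOn c c' J) : Cv M I c := by
  have k : ∀ t ∈ I, ∃ J, J ∈ 𝓝[I] t ∧ J ⊆ I ∧ t ∈ J ∧ Cv M J c := fun t ht => by
    obtain ⟨J, c', a1, a2, a3, a4⟩ := h t ht
    exact ⟨J, a1, a2, mem_of_mem_nhdsWithin ht a1, congr a3 a4⟩
  refine ⟨fun t ht => ?_, fun t ht e he => ?_⟩
  · obtain ⟨J, a1, -, a3, a4⟩ := k t ht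
    exact (a4.1 t a3).mono_of_mem_nhdsWithin a1
  obtain ⟨J, a1, a2, a3, a4⟩ := k t ht
  obtain ⟨k1, k2⟩ := a4.2 t a3 e he
  exact ⟨k1.mono_of_mem_nhdsWithin a1, fun y w hy hw => k2 y w hy (hw.trans
    (derivWithin_congr_set (nhdsWithin_eq_iff_eventuallyEq.1
      (le_antisymm (nhdsWithin_le_iff.2 a1) (nhdsWithin_mono _ a2)))))⟩

theorem aff (h : St M) {s l : ℝ} (hl : 0 < l) (hu : UniqueDiffOn ℝ J)
    (hm : MapsTo (fun x : ℝ => s + x * l) J I) (hc : Cv M I c) :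
    Cv M J fun x => c (s + x * l) := by
  have hd : ContDiff ℝ 1 fun x : ℝ => s + x * l := by fun_prop
  refine ⟨hc.1.comp hd.continuous.continuousOn hm, fun t ht e he => ?_⟩
  obtain ⟨k1, k2⟩ := hc.2 _ (hm ht) e he
  obtain ⟨k3, k4⟩ := k2 _ _ rfl rfl
  refine ⟨ContDiffWithinAt.comp t (g := fun s => co e (c s)) k1 hd.contDiffWithinAt hm,
    fun y w hy hw => ?_⟩
  have k5 : HasDerivWithinAt (fun x : ℝ => s + x * l) l J t :=
    (((hasDerivAt_id t).mul_const l).const_add s).hasDerivWithinAt.congr_deriv (one_mul l)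
  have k6 := ((k1.differentiableWithinAt one_ne_zero).hasDerivWithinAt.scomp t k5 hm).derivWithin
    (hu t ht)
  have B := bilin_of (h.lor e) (co_mem he)
  rw [neg_zero] at k3 ⊢
  rw [hy, hw.trans k6, B.smul_left, B.smul_right, B.smul_left]
  exact ⟨mul_neg_of_pos_of_neg hl (mul_neg_of_pos_of_neg hl k3), mul_neg_of_pos_of_neg hl k4⟩

theorem chart (h : St M) {x x' : ℝ → R4} (hu : UniqueDiffOn ℝ I) (hc : ContinuousOn x' I)
    (k : ∀ t ∈ I, x t ∈ tgt e ∧ HasDerivWithinAt x (x' t) I t ∧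
      M.g e (x t) (x' t) (x' t) < 0 ∧ M.g e (x t) (x' t) (M.X e (x t)) < 0) :
    Cv M I fun t => inv e (x t) := by
  have s : ContDiffOn ℝ 1 x I := (contDiffOn_one_iff_derivWithin hu).2
    ⟨fun t ht => (k t ht).2.1.differentiableWithinAt,
      hc.congr fun t ht => (k t ht).2.1.derivWithin (hu t ht)⟩
  refine ⟨fun t ht => (inv_cont (k t ht).1).comp_continuousWithinAt (s.continuousOn t ht),
    fun t ht e' he => ?_⟩
  obtain ⟨k1, k2, k3, k4⟩ := k t ht
  have b := iso_iff.1 (isIsom_iff.1 h.sp.tensor e e' _ k1 he)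
  refine ⟨(b.1.of_le (by simp)).comp_contDiffWithinAt t (s t ht), ?_⟩
  rintro _ w rfl hw
  have d := ((b.1.differentiableAt (by simp)).hasFDerivAt.comp_hasDerivWithinAt t k2).derivWithin
    (hu t ht)
  rw [hw.trans d, neg_zero]
  exact ⟨b.2.1 _ _ ▸ k3, fut_map (h.lor e) (h.lor e') k1 (co_mem he) b.2.1 b.2.2 k3 k4⟩

theorem vel (h : Cv M I c) (hu : UniqueDiffOn ℝ I) (k : ∀ t ∈ I, On e (c t)) :
    ∃ x' : ℝ → R4, ContinuousOn x' I ∧ ∀ t ∈ I, HasDerivWithinAt (fun s => co e (c s)) (x' t) I t ∧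
      M.g e (co e (c t)) (x' t) (x' t) < 0 ∧
      M.g e (co e (c t)) (x' t) (M.X e (co e (c t))) < 0 := by
  have s : ContDiffOn ℝ 1 (fun s => co e (c s)) I := fun t ht => (h.2 t ht e (k t ht)).1
  refine ⟨derivWithin (fun s => co e (c s)) I, s.continuousOn_derivWithin hu le_rfl,
    fun t ht => ⟨((s t ht).differentiableWithinAt one_ne_zero).hasDerivWithinAt, ?_⟩⟩
  simpa only [neg_zero] using (h.2 t ht e (k t ht)).2 _ _ rfl rfl

theorem ll_cv (h : St M) {s t : ℝ} (hc : Cv M I c) (hI : Icc s t ⊆ I) (st : s < t) :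
    LL M (c s) (c t) :=
  ⟨fun x => c (s + x * (t - s)), aff h (sub_pos.2 st) (uniqueDiffOn_Icc one_pos)
    (fun x hx => hI ⟨by nlinarith [hx.1], by nlinarith [hx.2]⟩) hc, by simp, by simp⟩

theorem seg (h : St M) {z v : R4} (k : ∀ t ∈ Icc (0 : ℝ) 1, z + t • v ∈ tgt e ∧
    M.g e (z + t • v) v v < 0 ∧ M.g e (z + t • v) v (M.X e (z + t • v)) < 0) :
    Cv M (Icc 0 1) fun t => inv e (z + t • v) :=
  chart h (x := fun t => z + t • v) (x' := fun _ => v) (uniqueDiffOn_Icc one_pos)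
    continuousOn_const fun t ht => ⟨(k t ht).1, by
      simpa using (((hasDerivAt_id t).smul_const v).const_add z).hasDerivWithinAt (s := Icc 0 1),
      (k t ht).2⟩

end Vale.Agent.P354CB24
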