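import Vale.Agent.P354CB24.B0
import Vale.Agent.P354CB44.Corner
import Vale.Agent.P354CB28.Nball
import Vale.Agent.P354CB19.Pu
import Vale.Agent.P354CB92.Chain
import Vale.Agent.P354CB69.Extf
import Vale.Agent.P354CB55.Gone
import Vale.Agent.P354CB47.Lim
import Vale.Agent.P354CB50.Ord
import Vale.Agent.P354CB41.Hull
import Vale.Agent.P354CB72.Ac
import Vale.Agent.P354CB15.Lk2
import Vale.Agent.P354CB97.Lk3

/-!
Everything below the key lemma.
-/

namespace Vale.Agent.P354CB24

open Vale.Agent.P354CB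

theorem l1 : L1 :=
  have C := P354CB44.corner b0
  have O := P354CB13.opn b0 C
  have H := P354CB92.chain b0 C
  ⟨b0, C, O, P354CB28.nball, P354CB19.pu b0 C O P354CB28.nball, H, P354CB69.extf b0 O H⟩

theorem l2 : L2 :=
  have G := P354CB55.gone l1
  have M := P354CB47.lim l1 G
  have O := P354CB50.ord l1 G M
  ⟨G, M, O, P354CB41.hull l1 G O, P354CB72.ac l1 G⟩

theorem l0 : L0 := ⟨l1, l2, P354CB59.lk1, P354CB15.lk2, P354CB97.lk3⟩

end Vale.Agent.P354CB24
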